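import Vale.Agent.P049.TS.H828.Num
import Vale.Agent.P049.TS.Asm.ParB
import Vale.Agent.P049.TS.Asm.ExpoEnv

/-!
Rate lemmas `gFB` and `g4B` of phase IIIb.
-/

set_option linter.unusedSectionVars false
set_option exponentiation.threshold 3000

namespace Vale.Agent.P049.TS.H828

open Matrix Finset D12 T34
open Vale.Agent.P049.TS.Asm (Rg Sgn mo LL XX Nk rT bB tB sB vB wB eB rhoB gFB g4B OneB EnvB)

variable {L X : ℝ}

/-- a monomial is bounded by the `Em` with at least its exponents -/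
theorem mo_le_Em (R : Rg L X 530 680) {p q : ℝ} {y1 y2 : ℤ} (h1 : 4 * (p + q * 530) ≤ (y1 : ℝ))
    (h2 : 4 * (p + q * 680) ≤ (y2 : ℝ)) : mo L X p q ≤ Asm.Em L X 530 680 y1 y2 := by
  unfold Asm.mo Asm.Em
  apply Real.exp_le_exp.2
  rw [le_div_iff₀ (by norm_num)]
  have h3 := R.lo
  have h4 := R.hi
  have h5 : 0 ≤ 680 * L - X := by linarith
  have h6 : 0 ≤ X - 530 * L := by linarith
  nlinarith [mul_le_mul_of_nonneg_right h1 h5, mul_le_mul_of_nonneg_right h2 h6]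

theorem rB_Em : mo L X (-1) 1 = Asm.Em L X 530 680 2116 2716 :=
  Asm.exp_eq_Em (by norm_num) (by norm_num) (by norm_num)

theorem N_Em {n d k : ℕ} (h : 0 < Nk n d k) :
    Nk n d k = Asm.Em (LL n) (XX n d k) 530 680 2120 2720 := by
  rw [← show mo (LL n) (XX n d k) 0 1 = Asm.Em (LL n) (XX n d k) 530 680 2120 2720 from
    Asm.exp_eq_Em (by norm_num) (by norm_num) (by norm_num)]
  unfold Asm.mo Asm.XX
  rw [zero_mul, zero_add, one_mul, Real.exp_log h]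

variable {ι : Type*} [Fintype ι] [DecidableEq ι]
variable {n d k : ℕ} {F : Finset ι} {Z : Matrix ι ι ℝ} {ε : ℝ}

theorem bB_nn : 0 ≤ bB n d k := by unfold Asm.bB; exact mul_nonneg (by norm_num) (Asm.mo_nonneg _ _ _ _)
theorem tB_nn : 0 ≤ tB n d k := by unfold Asm.tB; exact mul_nonneg (by norm_num) (Asm.mo_nonneg _ _ _ _)
theorem sB_nn : 0 ≤ sB n d k := by unfold Asm.sB; exact Asm.mo_nonneg _ _ _ _
theorem vB_nn : 0 ≤ vB n d k := by unfold Asm.vB; exact mul_nonneg (by norm_num) (Asm.mo_nonneg _ _ _ _)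
theorem wB_nn : 0 ≤ wB n d k := by unfold Asm.wB; exact Asm.mo_nonneg _ _ _ _
theorem eB_nn : 0 ≤ eB n d k := by
  unfold Asm.eB; exact mul_nonneg (by positivity) (Asm.mo_nonneg _ _ _ _)

theorem ctlB (h : OneB n d k ε F Z) :
    Ctl F Z (bB n d k) (tB n d k) (sB n d k) (vB n d k) (wB n d k) where
  symm := h.symm
  supp := h.supp
  row := h.row
  b0 := bB_nn
  t0 := tB_nn
  s0 := sB_nn
  v0 := vB_nn
  w0 := wB_nn
  T4 := h.T4
  T2 := h.T2
  X0 := h.X0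
  S := h.S
  V := h.V
  W := h.W

/-- the parameter `a1` -/
noncomputable def aB (n d k : ℕ) : ℝ :=
  2 * bB n d k ^ 2 + 2 * (bB n d k * wB n d k) + 2 * (bB n d k * vB n d k) + 2 * sB n d k

theorem aB_nn : 0 ≤ aB n d k := by
  have := bB_nn (n := n) (d := d) (k := k)
  have := sB_nn (n := n) (d := d) (k := k)
  have := vB_nn (n := n) (d := d) (k := k)
  have := wB_nn (n := n) (d := d) (k := k)
  unfold aB
  positivity

theorem aB_sq : 2 * (bB n d k ^ 4 + vB n d k * (bB n d k ^ 2 * wB n d k)) + 2 * sB n d k ^ 2 ≤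
    aB n d k ^ 2 := by
  have h1 := bB_nn (n := n) (d := d) (k := k)
  have h2 := sB_nn (n := n) (d := d) (k := k)
  have h3 := vB_nn (n := n) (d := d) (k := k)
  have h4 := wB_nn (n := n) (d := d) (k := k)
  unfold aB
  set b := bB n d k
  set s := sB n d k
  set v := vB n d k
  set w := wB n d k
  have e : (2 * b ^ 2 + 2 * (b * w) + 2 * (b * v) + 2 * s) ^ 2 =
      4 * b ^ 4 + 8 * (b ^ 2 * (v * w)) + 4 * s ^ 2 + (4 * (b * w) ^ 2 + 4 * (b * v) ^ 2 +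
        8 * b ^ 2 * (b * w) + 8 * b ^ 2 * (b * v) + 8 * b ^ 2 * s + 8 * (b * w) * s +
        8 * (b * v) * s) := by ring
  rw [e]
  have h5 : 0 ≤ 4 * (b * w) ^ 2 + 4 * (b * v) ^ 2 +
        8 * b ^ 2 * (b * w) + 8 * b ^ 2 * (b * v) + 8 * b ^ 2 * s + 8 * (b * w) * s +
        8 * (b * v) * s := by positivity
  have h6 : 0 ≤ b ^ 2 * (v * w) := by positivity
  have h7 : 0 ≤ b ^ 4 := by positivity
  have h8 : 0 ≤ s ^ 2 := by positivity
  nlinarith

/-- the bound for `|T₁|` -/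
noncomputable def τB (n d k : ℕ) : ℝ := mo (LL n) (XX n d k) (-294) 1

/-- the constant of the parameters -/
noncomputable def KB (d : ℕ) : ℝ := 8 * ((d : ℝ) + 25) ^ 2

theorem numB (R : Rg (LL n) (XX n d k) 530 680) (hN : 0 < Nk n d k) :
    NumB (LL n) (XX n d k) (KB d) (bB n d k) (tB n d k) (sB n d k) (vB n d k) (wB n d k)
      (aB n d k) (eB n d k) (τB n d k) (Nk n d k) := by
  have hd : (25 : ℝ) ≤ (d : ℝ) + 25 := by
    have : (0 : ℝ) ≤ d := Nat.cast_nonneg d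
    linarith
  have hK1 : (1 : ℝ) ≤ KB d := by unfold KB; nlinarith
  have hK2 : (2 : ℝ) ≤ KB d := by unfold KB; nlinarith
  have hKd : (d : ℝ) + 25 ≤ KB d := by unfold KB; nlinarith
  have key : ∀ {c x : ℝ} {p q : ℝ} {y1 y2 : ℤ}, x = c * mo (LL n) (XX n d k) p q → 0 ≤ c →
      c ≤ KB d → 4 * (p + q * 530) ≤ (y1 : ℝ) → 4 * (p + q * 680) ≤ (y2 : ℝ) →
      0 ≤ x ∧ x ≤ KB d * Asm.Em (LL n) (XX n d k) 530 680 y1 y2 := by
    intro c x p q y1 y2 hx hc hcK h1 h2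
    subst hx
    exact ⟨mul_nonneg hc (Asm.mo_nonneg _ _ _ _),
      mul_le_mul hcK (mo_le_Em R h1 h2) (Asm.mo_nonneg _ _ _ _) (hc.trans hcK)⟩
  have one : ∀ x : ℝ, x = 1 * x := fun x => (one_mul x).symm
  have k2 : ∀ {c x : ℝ} {p q : ℝ} {y1 y2 : ℤ}, x = c * mo (LL n) (XX n d k) p q → 0 ≤ c →
      c ≤ 2 → 4 * (p + q * 530) ≤ (y1 : ℝ) → 4 * (p + q * 680) ≤ (y2 : ℝ) →
      0 ≤ x ∧ x ≤ 2 * Asm.Em (LL n) (XX n d k) 530 680 y1 y2 := by
    intro c x p q y1 y2 hx hc hcK h1 h2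
    subst hx
    exact ⟨mul_nonneg hc (Asm.mo_nonneg _ _ _ _),
      mul_le_mul hcK (mo_le_Em R h1 h2) (Asm.mo_nonneg _ _ _ _) (hc.trans hcK)⟩
  -- bounds with constant 2
  have cb := k2 (x := bB n d k) (y1 := 727) (y2 := 1327) rfl (by norm_num) le_rfl
    (by norm_num) (by norm_num)
  have cs := k2 (x := sB n d k) (y1 := -84) (y2 := 216) (one _) (by norm_num) (by norm_num)
    (by norm_num) (by norm_num)
  have cv := k2 (x := vB n d k) (y1 := 1060) (y2 := 1390) rfl (by norm_num) le_rfl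
    (by norm_num) (by norm_num)
  have cw := k2 (x := wB n d k) (y1 := 786) (y2 := 1386) (one _) (by norm_num) (by norm_num)
    (by norm_num) (by norm_num)
  have prod : ∀ {x y : ℝ} {y1 y2 z1 z2 : ℤ},
      0 ≤ x ∧ x ≤ 2 * Asm.Em (LL n) (XX n d k) 530 680 y1 y2 →
      0 ≤ y ∧ y ≤ 2 * Asm.Em (LL n) (XX n d k) 530 680 z1 z2 →
      x * y ≤ 4 * Asm.Em (LL n) (XX n d k) 530 680 (y1 + z1) (y2 + z2) := by
    intro x y y1 y2 z1 z2 hx hy
    rw [← Asm.Em_mul]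
    calc x * y ≤ (2 * Asm.Em (LL n) (XX n d k) 530 680 y1 y2) *
          (2 * Asm.Em (LL n) (XX n d k) 530 680 z1 z2) :=
          mul_le_mul hx.2 hy.2 hy.1 (mul_nonneg (by norm_num) (Asm.Em_pos _ _ _ _ _ _).le)
      _ = _ := by ring
  have pbb := prod cb cb
  have pbw := prod cb cw
  have pbv := prod cb cv
  have mono : ∀ {y1 y2 : ℤ}, y1 ≤ 1791 → y2 ≤ 2717 →
      Asm.Em (LL n) (XX n d k) 530 680 y1 y2 ≤ Asm.Em (LL n) (XX n d k) 530 680 1791 2717 :=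
    fun h1 h2 => Asm.Em_le R h1 h2
  have mbb := mono (y1 := 727 + 727) (y2 := 1327 + 1327) (by norm_num) (by norm_num)
  have mbw := mono (y1 := 727 + 786) (y2 := 1327 + 1386) (by norm_num) (by norm_num)
  have mbv := mono (y1 := 727 + 1060) (y2 := 1327 + 1390) (by norm_num) (by norm_num)
  have ms := mono (y1 := -84) (y2 := 216) (by norm_num) (by norm_num)
  refine ⟨hK1, hN, N_Em hN, ?_, ?_, ?_, ?_, ?_, ?_, ?_, ?_⟩
  · exact key (x := bB n d k) rfl (by norm_num) hK2 (by norm_num) (by norm_num)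
  · exact key (x := tB n d k) rfl (by norm_num) hK2 (by norm_num) (by norm_num)
  · exact key (x := sB n d k) (one _) (by norm_num) hK1 (by norm_num) (by norm_num)
  · exact key (x := vB n d k) rfl (by norm_num) hK2 (by norm_num) (by norm_num)
  · exact key (x := wB n d k) (one _) (by norm_num) hK1 (by norm_num) (by norm_num)
  · refine ⟨aB_nn, ?_⟩
    have hE := Asm.Em_pos (LL n) (XX n d k) 530 680 1791 2717
    have h28 : aB n d k ≤ 28 * Asm.Em (LL n) (XX n d k) 530 680 1791 2717 := by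
      unfold aB
      have e2 : bB n d k ^ 2 = bB n d k * bB n d k := sq _
      rw [e2]
      linarith [cs.2]
    have hK28 : (28 : ℝ) ≤ KB d := by unfold KB; nlinarith
    exact h28.trans (mul_le_mul_of_nonneg_right hK28 hE.le)
  · exact key (x := eB n d k) rfl (by linarith) hKd (by norm_num) (by norm_num)
  · exact key (x := τB n d k) (one _) (by norm_num) hK1 (by norm_num) (by norm_num)


/-! ### Range, number of non-admissible pairs -/

theorem Nk_gtB (hk : k < Asm.k4 n d) : (sR n : ℝ) ^ 530 < Nk n d k := by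
  have h : 2 * k + sR n ^ 530 < n * d := by unfold Asm.k4 at hk; omega
  unfold Asm.Nk
  have : ((2 * k + sR n ^ 530 : ℕ) : ℝ) < ((n * d : ℕ) : ℝ) := by exact_mod_cast h
  push_cast at this
  linarith

theorem Nk_leB (hk : Asm.k3 n d ≤ k) : Nk n d k ≤ (sR n : ℝ) ^ 680 := by
  have h : n * d ≤ 2 * k + sR n ^ 680 := by unfold Asm.k3 at hk; omega
  unfold Asm.Nk
  have : ((n * d : ℕ) : ℝ) ≤ ((2 * k + sR n ^ 680 : ℕ) : ℝ) := by exact_mod_cast h
  push_cast at this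
  linarith

theorem NkB_pos (hk : k < Asm.k4 n d) : 0 < Nk n d k :=
  lt_of_le_of_lt (by positivity) (Nk_gtB hk)

theorem rgB (h : 1 ≤ sR n) (hk3 : Asm.k3 n d ≤ k) (hk : k < Asm.k4 n d) :
    Rg (LL n) (XX n d k) 530 680 where
  lt := by norm_num
  lo := by
    have hσ : (0 : ℝ) < sR n := by exact_mod_cast h
    have h1 := Real.log_le_log (by positivity) (Nk_gtB hk).le
    rw [Real.log_pow] at h1
    push_cast at h1
    exact h1
  hi := by
    have h1 := Real.log_le_log (NkB_pos hk) (Nk_leB hk3)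
    rw [Real.log_pow] at h1
    push_cast at h1
    exact h1

variable {Zp Zm : Matrix ι ι ℝ} {forb : ι → ι → Prop}

theorem oneB (h : EnvB n d k F Zp Zm forb) (hs : Sgn Zp Zm ε Z) : OneB n d k ε F Z := by
  rcases hs with ⟨rfl, rfl⟩ | ⟨rfl, rfl⟩
  · exact h.p
  · exact h.m

theorem sgn_eps (hs : Sgn Zp Zm ε Z) : ε = 1 ∨ ε = -1 := by
  rcases hs with ⟨h, -⟩ | ⟨h, -⟩
  · exact Or.inl h
  · exact Or.inr h

theorem frob_eq (hZ : Z.IsSymm) : frob Z = (Z ^ 2).trace := by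
  rw [D12.trace_sq_eq hZ, frob]

/-- `T₂ ≤ N` and `S₁² ≤ N` in phase IIIb -/
theorem small_leB (hσ : 2000 ≤ sR n) (hk3 : Asm.k3 n d ≤ k) (hk : k < Asm.k4 n d)
    (o : OneB n d k ε F Z) : frob Z ≤ Nk n d k ∧ Sd F Z ^ 2 ≤ Nk n d k := by
  have hs1 : (2000 : ℝ) ≤ sR n := by exact_mod_cast hσ
  have hs0 : (1 : ℝ) ≤ sR n := by linarith
  have hN := NkB_pos hk
  have hle := Nk_leB hk3
  have h4 : 2 ≤ Nk n d k := by
    have h2 : (sR n : ℝ) ≤ (sR n : ℝ) ^ 530 := le_self_pow₀ hs0 (by norm_num)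
    have := Nk_gtB hk
    linarith
  constructor
  · rw [frob_eq o.symm]
    have h1 := o.T2_le
    have h2 : Nk n d k ^ 2 / (sR n : ℝ) ^ 684 ≤ Nk n d k / 2 := by
      rw [div_le_div_iff₀ (by positivity) (by norm_num)]
      have h3 : Nk n d k * 2 ≤ (sR n : ℝ) ^ 684 := by
        have h5 : (sR n : ℝ) ^ 684 = (sR n : ℝ) ^ 680 * (sR n : ℝ) ^ 4 := by rw [← pow_add]
        rw [h5]
        have h6 : (2 : ℝ) ≤ (sR n : ℝ) ^ 4 := by
          have : (sR n : ℝ) ≤ (sR n : ℝ) ^ 4 := le_self_pow₀ hs0 (by norm_num)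
          linarith
        exact mul_le_mul hle h6 (by norm_num) (by positivity)
      calc Nk n d k ^ 2 * 2 = Nk n d k * (Nk n d k * 2) := by ring
        _ ≤ Nk n d k * (sR n : ℝ) ^ 684 := mul_le_mul_of_nonneg_left h3 hN.le
    linarith
  · have h1 := o.S_le
    have h2 : Sd F Z ≤ Nk n d k / (sR n : ℝ) ^ 340 := h1.trans
      (div_le_div_of_nonneg_left hN.le (by positivity) (pow_le_pow_right₀ hs0 (by norm_num)))
    have h3 : Sd F Z ^ 2 ≤ (Nk n d k / (sR n : ℝ) ^ 340) ^ 2 :=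
      pow_le_pow_left₀ (Sd_nonneg _ _) h2 2
    refine h3.trans ?_
    rw [div_pow, ← pow_mul, div_le_iff₀ (by positivity)]
    calc Nk n d k ^ 2 = Nk n d k * Nk n d k := sq _
      _ ≤ Nk n d k * (sR n : ℝ) ^ (340 * 2) := mul_le_mul_of_nonneg_left hle hN.le

theorem card_compl_leB (hσ : 2000 ≤ sR n) (h : EnvB n d k F Zp Zm forb) :
    ((((F ×ˢ F) \ adm F forb Zp Zm).card : ℕ) : ℝ) ≤ eB n d k ^ 2 := by
  classical
  have hN := NkB_pos h.k_lt
  have h1 := card_compl_adm_le (F := F) (forb := forb) (Zp := Zp) (Zm := Zm)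
    (Δ := (d : ℝ) * (d + 1)) (h.fo.card)
  obtain ⟨p1, p2⟩ := small_leB hσ h.k_ge h.k_lt h.p
  obtain ⟨m1, m2⟩ := small_leB hσ h.k_ge h.k_lt h.m
  have e3 : eB n d k ^ 2 = ((d : ℝ) + 25) ^ 2 * Nk n d k := by
    unfold Asm.eB
    rw [mul_pow, Asm.mo_pow, Asm.Nk_eq_mo hN (LL n)]
    norm_num
  rw [e3]
  rw [h.card] at h1
  have hd : (0 : ℝ) ≤ d := Nat.cast_nonneg d
  nlinarith

theorem mu_bounds (hd : 3 ≤ d) : 0 ≤ (√((d : ℝ) - 1))⁻¹ ∧ (√((d : ℝ) - 1))⁻¹ ≤ 1 := by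
  have h3 : (3 : ℝ) ≤ d := by exact_mod_cast hd
  refine ⟨by positivity, ?_⟩
  have h1 : (1 : ℝ) ≤ √((d : ℝ) - 1) := by
    rw [Real.one_le_sqrt]; linarith
  exact inv_le_one_of_one_le₀ h1

theorem rhoB_nn (hN : 0 < Nk n d k) : 0 ≤ rhoB n d k := by
  unfold Asm.rhoB; positivity

theorem powEm (hσ : 2000 ≤ sR n) (j : ℕ) :
    (sR n : ℝ) ^ j = Asm.Em (LL n) X 530 680 (4 * j) (4 * j) :=
  Asm.sR_pow_Em hσ (by norm_num) j

theorem tau_le (hσ : 2000 ≤ sR n) (hN : 0 < Nk n d k) (o : OneB n d k ε F Z) :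
    |Z.trace| ≤ τB n d k := by
  have hs1 : (2000 : ℝ) ≤ sR n := by exact_mod_cast hσ
  have hs0 : (1 : ℝ) ≤ sR n := by linarith
  have h1 : |Z.trace| ≤ Nk n d k / (sR n : ℝ) ^ 294 := o.T1_abs.trans
    (div_le_div_of_nonneg_left hN.le (by positivity) (pow_le_pow_right₀ hs0 (by norm_num)))
  refine h1.trans (le_of_eq ?_)
  unfold τB
  rw [Asm.Nk_eq_mo hN (LL n), Asm.sR_pow (by omega) (XX n d k), Asm.mo_div]
  norm_num

/-- **rate of `gFB`** -/
theorem rate_gFB (d : ℕ) (_hd : 3 ≤ d) : ∃ C : ℝ, ∃ s0 : ℕ, ∀ (ι : Type*) [Fintype ι]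
    [DecidableEq ι] (n k : ℕ) (F : Finset ι) (Zp Zm : Matrix ι ι ℝ) (forb : ι → ι → Prop),
    s0 ≤ sR n → EnvB n d k F Zp Zm forb → ∀ (ε : ℝ) (Z : Matrix ι ι ℝ), Sgn Zp Zm ε Z →
    ∑ p ∈ adm F forb Zp Zm, (gFB n d (k + 1) (upd Z p.1 p.2) - gFB n d k Z) ≤
      C * rT n d k := by
  refine ⟨xBF.cs (fun _ => KB d), 2000, ?_⟩
  intro ι _ _ n k F Zp Zm forb hσ h ε Z hs
  obtain ⟨Z', hP⟩ := hs.isPair
  have o := oneB h hs
  have c := ctlB o
  have R := rgB (by omega) h.k_ge h.k_lt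
  have hN := NkB_pos h.k_lt
  have hN4 : 4 ≤ Nk n d k := by
    have hs1 : (2000 : ℝ) ≤ sR n := by exact_mod_cast hσ
    have h2 : (sR n : ℝ) ≤ (sR n : ℝ) ^ 530 := le_self_pow₀ (by linarith) (by norm_num)
    have := Nk_gtB h.k_lt
    linarith
  obtain ⟨hm0, hm1⟩ := mu_bounds h.d3
  have hT : ε * Z.trace ≤ 0 := by
    have := o.T1_neg
    have := rhoB_nn hN
    linarith
  have hτ : |Z.trace| ≤ τB n d k := tau_le hσ hN o
  have h3 := o.sg.trace_odd 0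
  have hmain := BF_rate (c0 := (sR n : ℝ) ^ 684) c (adm_subset F forb Zp Zm) (Rate.adm_pairOK hP)
    (eB_nn (n := n) (d := d) (k := k)) (card_compl_leB hσ h) h.card hN4 (sgn_eps hs) hT hτ hm0 hm1
    (by simpa using h3) (by positivity)
  have e4 : ∀ p : ι × ι, gFB n d (k + 1) (upd Z p.1 p.2) - gFB n d k Z =
      ((upd Z p.1 p.2 ^ 2).trace - 1) * (sR n : ℝ) ^ 684 / (Nk n d k - 2) ^ 2 -
        ((Z ^ 2).trace - 1) * (sR n : ℝ) ^ 684 / Nk n d k ^ 2 := fun p => by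
    unfold Asm.gFB; rw [Asm.Nk_succ]
  rw [Finset.sum_congr rfl fun p _ => e4 p]
  refine hmain.trans ?_
  have hc : (sR n : ℝ) ^ 684 = Asm.Em (LL n) (XX n d k) 530 680 2736 2736 := by
    have := powEm (X := XX n d k) hσ 684
    simpa using this
  have h5 := (numB R hN).BF R hc
  rw [show rT n d k = Asm.Em (LL n) (XX n d k) 530 680 2116 2716 from rB_Em]
  exact h5

/-- **rate of `g4B`** -/
theorem rate_g4B (d : ℕ) (_hd : 3 ≤ d) : ∃ C : ℝ, ∃ s0 : ℕ, ∀ (ι : Type*) [Fintype ι]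
    [DecidableEq ι] (n k : ℕ) (F : Finset ι) (Zp Zm : Matrix ι ι ℝ) (forb : ι → ι → Prop),
    s0 ≤ sR n → EnvB n d k F Zp Zm forb → ∀ (ε : ℝ) (Z : Matrix ι ι ℝ), Sgn Zp Zm ε Z →
    ∑ p ∈ adm F forb Zp Zm, (g4B n d (k + 1) (upd Z p.1 p.2) - g4B n d k Z) ≤
      C * rT n d k := by
  refine ⟨xB4.cs (fun _ => KB d), 2000, ?_⟩
  intro ι _ _ n k F Zp Zm forb hσ h ε Z hs
  obtain ⟨Z', hP⟩ := hs.isPair
  have o := oneB h hs
  have c := ctlB o
  have R := rgB (by omega) h.k_ge h.k_lt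
  have hN := NkB_pos h.k_lt
  have hN4 : 4 ≤ Nk n d k := by
    have hs1 : (2000 : ℝ) ≤ sR n := by exact_mod_cast hσ
    have h2 : (sR n : ℝ) ≤ (sR n : ℝ) ^ 530 := le_self_pow₀ (by linarith) (by norm_num)
    have := Nk_gtB h.k_lt
    linarith
  obtain ⟨hm0, hm1⟩ := mu_bounds h.d3
  have hT : ε * Z.trace ≤ 0 := by
    have := o.T1_neg
    have := rhoB_nn hN
    linarith
  have hτ : |Z.trace| ≤ τB n d k := tau_le hσ hN o
  have h3 := o.sg.trace_odd 1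
  have hmain := B4_rate (c0 := (sR n : ℝ) ^ 1393) c (aB_nn (n := n) (d := d) (k := k)) aB_sq
    (adm_subset F forb Zp Zm) (Rate.adm_pairOK hP)
    (eB_nn (n := n) (d := d) (k := k)) (card_compl_leB hσ h) h.card hN4 (sgn_eps hs) hT hτ hm0 hm1
    (by simpa using h3) (by positivity)
  have e4 : ∀ p : ι × ι, g4B n d (k + 1) (upd Z p.1 p.2) - g4B n d k Z =
      (upd Z p.1 p.2 ^ 4).trace * (sR n : ℝ) ^ 1393 / (Nk n d k - 2) ^ 4 -
        (Z ^ 4).trace * (sR n : ℝ) ^ 1393 / Nk n d k ^ 4 := fun p => by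
    unfold Asm.g4B; rw [Asm.Nk_succ]
  rw [Finset.sum_congr rfl fun p _ => e4 p]
  refine hmain.trans ?_
  have hc : (sR n : ℝ) ^ 1393 = Asm.Em (LL n) (XX n d k) 530 680 5572 5572 := by
    have := powEm (X := XX n d k) hσ 1393
    simpa using this
  have h5 := (numB R hN).B4 R hc
  rw [show rT n d k = Asm.Em (LL n) (XX n d k) 530 680 2116 2716 from rB_Em]
  exact h5

end Vale.Agent.P049.TS.H828
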