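import Vale.Agent.P049.TS.T34.Drift34
import Vale.Agent.P049.TS.Shell.Sign
import Vale.Agent.P049.TS.Asm.Square
import Vale.Agent.P049.TS.Rate.T1

/-!
Exponent-free rate inequalities for the linear potentials `c₀ (T₂ - 1) / N²` and `c₀ T₄ / N⁴`
(uniform weights, `ε T₁ ≤ 0`), used below the opening of the gap.
-/

set_option linter.unusedSectionVars false

namespace Vale.Agent.P049.TS.H828

open Matrix Finset D12 T34

variable {ι : Type*} [Fintype ι] [DecidableEq ι]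

variable {F : Finset ι} {A : Finset (ι × ι)} {Z : Matrix ι ι ℝ} {b t s v w e ε τ m c0 N : ℝ}

/-- the error in the mean of `ΔT₂` for uniform weights (`T2_mean'` with `h = 0`) -/
noncomputable def errT2 (b t s v w e : ℝ) : ℝ :=
  4 * e * (b ^ 3 + s * (2 * b * w + 2 * s) + v ^ 2) +
    18 * ((t + s ^ 2) * (b ^ 3 + 2 * (s * (2 * b * w + 2 * s)) + v ^ 2)) +
    30 * (b ^ 4 + 2 * (s * v) ^ 2)

theorem card_le_sq (hA : A ⊆ F ×ˢ F) (hN : (F.card : ℝ) = N) : (A.card : ℝ) ≤ N ^ 2 := by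
  have h := Finset.card_le_card hA
  rw [Finset.card_product] at h
  rw [← hN]
  calc (A.card : ℝ) ≤ ((F.card * F.card : ℕ) : ℝ) := by exact_mod_cast h
    _ = _ := by push_cast; ring

theorem card_ge_sq (hA : A ⊆ F ×ˢ F) (hN : (F.card : ℝ) = N)
    (hE : (((F ×ˢ F) \ A).card : ℝ) ≤ e ^ 2) : N ^ 2 - e ^ 2 ≤ (A.card : ℝ) := by
  have h2 : ((F ×ˢ F).card : ℝ) = (((F ×ˢ F) \ A).card : ℝ) + A.card := by
    rw [← Nat.cast_add, Finset.card_sdiff_add_card_eq_card hA]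
  have h3 : ((F ×ˢ F).card : ℝ) = N ^ 2 := by
    rw [Finset.card_product, ← hN]; push_cast; ring
  linarith

/-- `T₂ ≥ 1` because the row sums are one -/
theorem one_le_trace_sq (hs : Z.IsSymm) (hsupp : ∀ a, a ∉ F → ∀ b, Z a b = 0)
    (hrow : ∀ a ∈ F, ∑ b, Z a b = 1) (hF : 0 < F.card) : 1 ≤ (Z ^ 2).trace := by
  have hN : (0 : ℝ) < F.card := by exact_mod_cast hF
  have hz : ∀ a b, b ∉ F → Z a b = 0 := fun a b hb => by
    rw [← hs.apply]; exact hsupp b hb a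
  have h1 : ∀ a ∈ F, (1 : ℝ) / F.card ≤ (Z ^ 2) a a := by
    intro a ha
    rw [Mat.sq_diag_eq_sum hs a]
    have e1 : ∑ j ∈ F, Z a j = 1 := by
      rw [← hrow a ha]
      exact Finset.sum_subset (Finset.subset_univ F) fun j _ hj => hz a j hj
    have e2 : ∑ j ∈ F, Z a j ^ 2 ≤ ∑ j, Z a j ^ 2 :=
      Finset.sum_le_sum_of_subset_of_nonneg (Finset.subset_univ F) fun _ _ _ => sq_nonneg _
    have e3 := sq_sum_le_card_mul_sum_sq (s := F) (f := fun j => Z a j)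
    rw [e1, one_pow] at e3
    rw [div_le_iff₀ hN]
    nlinarith
  have h2 : ∑ a ∈ F, (1 : ℝ) / F.card ≤ ∑ a ∈ F, (Z ^ 2) a a := Finset.sum_le_sum h1
  rw [Finset.sum_const, nsmul_eq_mul, mul_one_div, div_self hN.ne'] at h2
  have h3 : ∑ a ∈ F, (Z ^ 2) a a = (Z ^ 2).trace := sum_diag_F (Supp.pow (show Supp F Z from hsupp) 1)
  linarith

theorem T2_up (c : Ctl F Z b t s v w) (hA : A ⊆ F ×ˢ F)
    (hadm : ∀ p ∈ A, p.1 ≠ p.2 ∧ PairOK Z p.1 p.2) (he : 0 ≤ e)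
    (hE : (((F ×ˢ F) \ A).card : ℝ) ≤ e ^ 2) (hN : (F.card : ℝ) = N)
    (hε : ε = 1 ∨ ε = -1) (h1 : ε * Z.trace ≤ 0) (hτ : |Z.trace| ≤ τ) (hm0 : 0 ≤ m) (hm1 : m ≤ 1)
    (h3 : -(m * (Z ^ 2).trace) + (ε + m) ≤ ε * (Z ^ 3).trace) :
    ∑ p ∈ A, ((upd Z p.1 p.2 ^ 2).trace - (Z ^ 2).trace) ≤
      -(4 * N * (Z ^ 2).trace) +
        (2 * t ^ 4 + 4 * τ * (t ^ 2 + 1) + 2 * e ^ 2 + errT2 b t s v w e) := by
  have m1 := T2_mean' (h := fun _ _ => 0) c hA hadm (fun p _ => by simp) he le_rfl hE (by simp)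
  simp only [sub_zero, one_mul, zero_mul, Finset.sum_const_zero, mul_zero, add_zero] at m1
  have e1 : ∑ p ∈ A, ((upd Z p.1 p.2 ^ 2).trace - (Z ^ 2).trace + 2) =
      ∑ p ∈ A, ((upd Z p.1 p.2 ^ 2).trace - (Z ^ 2).trace) + 2 * A.card := by
    rw [Finset.sum_add_distrib, Finset.sum_const, nsmul_eq_mul]; ring
  rw [e1, hN] at m1
  have m2 := (abs_le.1 m1).2
  have m3 := card_ge_sq hA hN hE
  have hT2 : 0 ≤ (Z ^ 2).trace := Mat.trace_pow_even_nonneg c.symm 1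
  have hτ0 : 0 ≤ τ := (abs_nonneg _).trans hτ
  have hεabs : |ε * Z.trace| ≤ τ := by rwa [Rate.eps_abs_mul hε]
  have hx : -(ε * Z.trace) ≤ τ := by
    have := (abs_le.1 hεabs).1; linarith
  have hee : ε * ε = 1 := by rcases hε with rfl | rfl <;> norm_num
  have hem : -1 ≤ ε + m := by rcases hε with rfl | rfl <;> linarith
  -- sign estimate for `T₁ T₃`
  have h5 : -((Z ^ 2).trace + 1) ≤ ε * (Z ^ 3).trace := by
    have : m * (Z ^ 2).trace ≤ 1 * (Z ^ 2).trace := mul_le_mul_of_nonneg_right hm1 hT2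
    linarith
  have h6 : Z.trace * (Z ^ 3).trace ≤ τ * (t ^ 2 + 1) := by
    have e2 : Z.trace * (Z ^ 3).trace = (ε * Z.trace) * (ε * (Z ^ 3).trace) := by
      calc _ = (ε * ε) * (Z.trace * (Z ^ 3).trace) := by rw [hee, one_mul]
        _ = _ := by ring
    rw [e2]
    have h7 : (ε * Z.trace) * (ε * (Z ^ 3).trace) ≤ (ε * Z.trace) * (-((Z ^ 2).trace + 1)) :=
      mul_le_mul_of_nonpos_left h5 h1
    have h8 : (-(ε * Z.trace)) * ((Z ^ 2).trace + 1) ≤ τ * (t ^ 2 + 1) :=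
      mul_le_mul hx (by have := c.T2; linarith) (by linarith) hτ0
    linarith
  have h9 : (Z ^ 2).trace ^ 2 ≤ t ^ 4 := by
    have e3 : t ^ 4 = (t ^ 2) ^ 2 := by ring
    rw [e3]
    exact pow_le_pow_left₀ hT2 c.T2 2
  have e4 : errT2 b t s v w e = 4 * e * (b ^ 3 + s * (2 * b * w + 2 * s) + v ^ 2) +
    18 * ((t + s ^ 2) * (b ^ 3 + 2 * (s * (2 * b * w + 2 * s)) + v ^ 2)) +
    30 * (b ^ 4 + 2 * (s * v) ^ 2) := rfl
  have m4 : ∑ p ∈ A, ((upd Z p.1 p.2 ^ 2).trace - (Z ^ 2).trace) + 2 * (A.card : ℝ) -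
      (4 * (Z.trace * ((Z ^ 3).trace - Z.trace)) + 2 * ((Z ^ 2).trace - N) ^ 2) ≤
      errT2 b t s v w e := by
    rw [e4]; linarith
  have h10 : 0 ≤ Z.trace ^ 2 := sq_nonneg _
  nlinarith

/-- **rate of `c₀ (T₂ - 1) / N²`** -/
theorem BF_rate (c : Ctl F Z b t s v w) (hA : A ⊆ F ×ˢ F)
    (hadm : ∀ p ∈ A, p.1 ≠ p.2 ∧ PairOK Z p.1 p.2) (he : 0 ≤ e)
    (hE : (((F ×ˢ F) \ A).card : ℝ) ≤ e ^ 2) (hN : (F.card : ℝ) = N) (hN4 : 4 ≤ N)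
    (hε : ε = 1 ∨ ε = -1) (h1 : ε * Z.trace ≤ 0) (hτ : |Z.trace| ≤ τ) (hm0 : 0 ≤ m) (hm1 : m ≤ 1)
    (h3 : -(m * (Z ^ 2).trace) + (ε + m) ≤ ε * (Z ^ 3).trace) (hc : 0 ≤ c0) :
    ∑ p ∈ A, (((upd Z p.1 p.2 ^ 2).trace - 1) * c0 / (N - 2) ^ 2 -
        ((Z ^ 2).trace - 1) * c0 / N ^ 2) ≤
      4 * c0 / N ^ 2 *
        (2 * t ^ 4 + 4 * τ * (t ^ 2 + 1) + 2 * e ^ 2 + errT2 b t s v w e) := by
  have h := T2_up c hA hadm he hE hN hε h1 hτ hm0 hm1 h3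
  set R := 2 * t ^ 4 + 4 * τ * (t ^ 2 + 1) + 2 * e ^ 2 + errT2 b t s v w e with hR
  have hτ0 : 0 ≤ τ := (abs_nonneg _).trans hτ
  have hR0 : 0 ≤ R := by
    rw [hR]
    have := c.b0
    have := c.t0
    have := c.s0
    have := c.v0
    have := c.w0
    unfold errT2
    positivity
  have hF : 0 < F.card := by
    have : (0 : ℝ) < F.card := by rw [hN]; linarith
    exact_mod_cast this
  have hT := one_le_trace_sq c.symm c.supp c.row hF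
  have hcard := card_le_sq hA hN
  have hNp : 0 < N := by linarith
  have hN2 : 0 < N - 2 := by linarith
  have e1 : ∑ p ∈ A, (((upd Z p.1 p.2 ^ 2).trace - 1) * c0 / (N - 2) ^ 2 -
        ((Z ^ 2).trace - 1) * c0 / N ^ 2) =
      c0 / (N - 2) ^ 2 * (∑ p ∈ A, ((upd Z p.1 p.2 ^ 2).trace - (Z ^ 2).trace) +
        ((Z ^ 2).trace - 1) * ((4 * N - 4) / N ^ 2) * A.card) := by
    have e2 : ∀ p : ι × ι, ((upd Z p.1 p.2 ^ 2).trace - 1) * c0 / (N - 2) ^ 2 -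
        ((Z ^ 2).trace - 1) * c0 / N ^ 2 =
        c0 / (N - 2) ^ 2 * ((upd Z p.1 p.2 ^ 2).trace - (Z ^ 2).trace) +
        c0 / (N - 2) ^ 2 * (((Z ^ 2).trace - 1) * ((4 * N - 4) / N ^ 2)) := by
      intro p
      field_simp
      ring
    rw [Finset.sum_congr rfl fun p _ => e2 p, Finset.sum_add_distrib, Finset.sum_const,
      nsmul_eq_mul, ← Finset.mul_sum]
    ring
  rw [e1]
  have h4 : ((Z ^ 2).trace - 1) * ((4 * N - 4) / N ^ 2) * A.card ≤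
      ((Z ^ 2).trace - 1) * (4 * N) := by
    have h5 : (4 * N - 4) / N ^ 2 * A.card ≤ 4 * N := by
      calc (4 * N - 4) / N ^ 2 * A.card ≤ (4 * N - 4) / N ^ 2 * N ^ 2 := by
            apply mul_le_mul_of_nonneg_left hcard
            apply div_nonneg _ (by positivity)
            linarith
        _ = 4 * N - 4 := by field_simp
        _ ≤ 4 * N := by linarith
    rw [mul_assoc]
    exact mul_le_mul_of_nonneg_left h5 (by linarith)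
  have h6 : ∑ p ∈ A, ((upd Z p.1 p.2 ^ 2).trace - (Z ^ 2).trace) +
        ((Z ^ 2).trace - 1) * ((4 * N - 4) / N ^ 2) * A.card ≤ R := by nlinarith
  have h7 : c0 / (N - 2) ^ 2 ≤ 4 * c0 / N ^ 2 := by
    rw [div_le_div_iff₀ (by positivity) (by positivity)]
    have : N ^ 2 ≤ 4 * (N - 2) ^ 2 := by nlinarith
    calc c0 * N ^ 2 ≤ c0 * (4 * (N - 2) ^ 2) := mul_le_mul_of_nonneg_left this hc
      _ = _ := by ring
  calc _ ≤ c0 / (N - 2) ^ 2 * R := mul_le_mul_of_nonneg_left h6 (by positivity)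
    _ ≤ _ := mul_le_mul_of_nonneg_right h7 hR0

/-- the error polynomial of `T4_up` -/
noncomputable def errT4 (b t s v w a1 e τ N : ℝ) : ℝ :=
  8 * N * t ^ 2 + 16 * (t ^ 2 * b ^ 4) + 8 * τ * (b ^ 4 + 1) + 8 * τ * (t * b ^ 2) + 8 * τ ^ 2 +
    err4 b t s v w (b ^ 2) a1 e 0

theorem abs_T3_le (hs : Z.IsSymm) (ht : 0 ≤ t) (hT2 : (Z ^ 2).trace ≤ t ^ 2)
    (hT4 : (Z ^ 4).trace ≤ b ^ 4) : |(Z ^ 3).trace| ≤ t * b ^ 2 := by
  have h1 := Mat.trace_three_sq_le hs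
  have h2 : 0 ≤ (Z ^ 2).trace := Mat.trace_pow_even_nonneg hs 1
  have h4 : 0 ≤ (Z ^ 4).trace := Mat.trace_pow_even_nonneg hs 2
  refine abs_le_of_sq_le_sq ?_ (by positivity)
  calc (Z ^ 3).trace ^ 2 ≤ _ := h1
    _ ≤ t ^ 2 * b ^ 4 := mul_le_mul hT2 hT4 h4 (sq_nonneg t)
    _ = _ := by ring

theorem T4_up {a1 : ℝ} (c : Ctl F Z b t s v w) (ha : 0 ≤ a1)
    (ha1 : 2 * (b ^ 4 + v * (b ^ 2 * w)) + 2 * s ^ 2 ≤ a1 ^ 2) (hA : A ⊆ F ×ˢ F)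
    (hadm : ∀ p ∈ A, p.1 ≠ p.2 ∧ PairOK Z p.1 p.2) (he : 0 ≤ e)
    (hE : (((F ×ˢ F) \ A).card : ℝ) ≤ e ^ 2) (hN : (F.card : ℝ) = N)
    (hε : ε = 1 ∨ ε = -1) (h1 : ε * Z.trace ≤ 0) (hτ : |Z.trace| ≤ τ) (hm0 : 0 ≤ m) (hm1 : m ≤ 1)
    (h5 : -(m * (Z ^ 4).trace) + (ε + m) ≤ ε * (Z ^ 5).trace) :
    ∑ p ∈ A, ((upd Z p.1 p.2 ^ 4).trace - (Z ^ 4).trace) ≤
      -(8 * N * (Z ^ 4).trace) + errT4 b t s v w a1 e τ N := by
  have m1 := (T34.Ctl.ct c ha ha1).T4_mean (h := fun _ _ => 0) (H := 0) hA hadm (fun p _ => by simp) he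
    le_rfl hE (by simp)
  simp only [sub_zero, one_mul, zero_mul, Finset.sum_const_zero, mul_zero, add_zero] at m1
  have e1 : ∑ p ∈ A, ((upd Z p.1 p.2 ^ 4).trace - (Z ^ 4).trace + 2) =
      ∑ p ∈ A, ((upd Z p.1 p.2 ^ 4).trace - (Z ^ 4).trace) + 2 * A.card := by
    rw [Finset.sum_add_distrib, Finset.sum_const, nsmul_eq_mul]; ring
  rw [e1, hN] at m1
  have m2 := (abs_le.1 m1).2
  have hc0 : (0 : ℝ) ≤ A.card := Nat.cast_nonneg _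
  have hN0 : 0 ≤ N := by rw [← hN]; exact Nat.cast_nonneg _
  have hT2 : 0 ≤ (Z ^ 2).trace := Mat.trace_pow_even_nonneg c.symm 1
  have hT4 : 0 ≤ (Z ^ 4).trace := Mat.trace_pow_even_nonneg c.symm 2
  have hτ0 : 0 ≤ τ := (abs_nonneg _).trans hτ
  have hεabs : |ε * Z.trace| ≤ τ := by rwa [Rate.eps_abs_mul hε]
  have hx : -(ε * Z.trace) ≤ τ := by
    have := (abs_le.1 hεabs).1; linarith
  have hee : ε * ε = 1 := by rcases hε with rfl | rfl <;> norm_num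
  have hem : -1 ≤ ε + m := by rcases hε with rfl | rfl <;> linarith
  have h6 : -((Z ^ 4).trace + 1) ≤ ε * (Z ^ 5).trace := by
    have : m * (Z ^ 4).trace ≤ 1 * (Z ^ 4).trace := mul_le_mul_of_nonneg_right hm1 hT4
    linarith
  have h7 : Z.trace * (Z ^ 5).trace ≤ τ * (b ^ 4 + 1) := by
    have e2 : Z.trace * (Z ^ 5).trace = (ε * Z.trace) * (ε * (Z ^ 5).trace) := by
      calc _ = (ε * ε) * (Z.trace * (Z ^ 5).trace) := by rw [hee, one_mul]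
        _ = _ := by ring
    rw [e2]
    have h7 : (ε * Z.trace) * (ε * (Z ^ 5).trace) ≤ (ε * Z.trace) * (-((Z ^ 4).trace + 1)) :=
      mul_le_mul_of_nonpos_left h6 h1
    have h8 : (-(ε * Z.trace)) * ((Z ^ 4).trace + 1) ≤ τ * (b ^ 4 + 1) :=
      mul_le_mul hx (by have := c.T4; linarith) (by linarith) hτ0
    linarith
  have hT3 := abs_T3_le c.symm c.t0 c.T2 c.T4
  have h8 : -(Z.trace * (Z ^ 3).trace) ≤ τ * (t * b ^ 2) := by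
    refine (neg_le_abs _).trans ?_
    rw [abs_mul]
    exact mul_le_mul hτ hT3 (abs_nonneg _) hτ0
  have h9 : (Z ^ 3).trace ^ 2 ≤ t ^ 2 * b ^ 4 := by
    rw [← sq_abs]
    calc |(Z ^ 3).trace| ^ 2 ≤ (t * b ^ 2) ^ 2 := pow_le_pow_left₀ (abs_nonneg _) hT3 2
      _ = _ := by ring
  have h10 : Z.trace ^ 2 ≤ τ ^ 2 := by
    rw [← sq_abs]
    exact pow_le_pow_left₀ (abs_nonneg _) hτ 2
  have h11 : (Z ^ 2).trace * (Z ^ 4).trace ≤ t ^ 2 * b ^ 4 :=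
    mul_le_mul c.T2 c.T4 hT4 (sq_nonneg t)
  have h12 : N * (Z ^ 2).trace ≤ N * t ^ 2 := mul_le_mul_of_nonneg_left c.T2 hN0
  have h13 : ((Z ^ 3).trace - Z.trace) ^ 2 ≤ 2 * (Z ^ 3).trace ^ 2 + 2 * Z.trace ^ 2 := by
    nlinarith [sq_nonneg ((Z ^ 3).trace + Z.trace)]
  have h14 : 0 ≤ (Z ^ 2).trace ^ 2 := sq_nonneg _
  have e4 : errT4 b t s v w a1 e τ N = 8 * N * t ^ 2 + 16 * (t ^ 2 * b ^ 4) +
    8 * τ * (b ^ 4 + 1) + 8 * τ * (t * b ^ 2) + 8 * τ ^ 2 +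
    err4 b t s v w (b ^ 2) a1 e 0 := rfl
  rw [e4]
  nlinarith

/-- **rate of `c₀ T₄ / N⁴`** -/
theorem B4_rate {a1 : ℝ} (c : Ctl F Z b t s v w) (ha : 0 ≤ a1)
    (ha1 : 2 * (b ^ 4 + v * (b ^ 2 * w)) + 2 * s ^ 2 ≤ a1 ^ 2) (hA : A ⊆ F ×ˢ F)
    (hadm : ∀ p ∈ A, p.1 ≠ p.2 ∧ PairOK Z p.1 p.2) (he : 0 ≤ e)
    (hE : (((F ×ˢ F) \ A).card : ℝ) ≤ e ^ 2) (hN : (F.card : ℝ) = N) (hN4 : 4 ≤ N)
    (hε : ε = 1 ∨ ε = -1) (h1 : ε * Z.trace ≤ 0) (hτ : |Z.trace| ≤ τ) (hm0 : 0 ≤ m) (hm1 : m ≤ 1)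
    (h5 : -(m * (Z ^ 4).trace) + (ε + m) ≤ ε * (Z ^ 5).trace) (hc : 0 ≤ c0) :
    ∑ p ∈ A, ((upd Z p.1 p.2 ^ 4).trace * c0 / (N - 2) ^ 4 - (Z ^ 4).trace * c0 / N ^ 4) ≤
      16 * c0 / N ^ 4 * errT4 b t s v w a1 e τ N := by
  have h := T4_up c ha ha1 hA hadm he hE hN hε h1 hτ hm0 hm1 h5
  have hτ0 : 0 ≤ τ := (abs_nonneg _).trans hτ
  have hNp : 0 < N := by linarith
  have hR0 : 0 ≤ errT4 b t s v w a1 e τ N := by
    have := c.b0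
    have := c.t0
    have := c.s0
    have := c.v0
    have := c.w0
    unfold errT4 err4 Qb
    positivity
  set R := errT4 b t s v w a1 e τ N with hR
  have hT : 0 ≤ (Z ^ 4).trace := Mat.trace_pow_even_nonneg c.symm 2
  have hcard := card_le_sq hA hN
  have hN2 : 0 < N - 2 := by linarith
  have e1 : ∑ p ∈ A, ((upd Z p.1 p.2 ^ 4).trace * c0 / (N - 2) ^ 4 -
        (Z ^ 4).trace * c0 / N ^ 4) =
      c0 / (N - 2) ^ 4 * (∑ p ∈ A, ((upd Z p.1 p.2 ^ 4).trace - (Z ^ 4).trace) +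
        (Z ^ 4).trace * ((N ^ 4 - (N - 2) ^ 4) / N ^ 4) * A.card) := by
    have e2 : ∀ p : ι × ι, (upd Z p.1 p.2 ^ 4).trace * c0 / (N - 2) ^ 4 -
        (Z ^ 4).trace * c0 / N ^ 4 =
        c0 / (N - 2) ^ 4 * ((upd Z p.1 p.2 ^ 4).trace - (Z ^ 4).trace) +
        c0 / (N - 2) ^ 4 * ((Z ^ 4).trace * ((N ^ 4 - (N - 2) ^ 4) / N ^ 4)) := by
      intro p
      field_simp
      ring
    rw [Finset.sum_congr rfl fun p _ => e2 p, Finset.sum_add_distrib, Finset.sum_const,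
      nsmul_eq_mul, ← Finset.mul_sum]
    ring
  rw [e1]
  have hp0 : 0 ≤ N ^ 4 - (N - 2) ^ 4 := by
    have : (N - 2) ^ 4 ≤ N ^ 4 := pow_le_pow_left₀ hN2.le (by linarith) 4
    linarith
  have hp1 : N ^ 4 - (N - 2) ^ 4 ≤ 8 * N ^ 3 := by nlinarith [sq_nonneg N]
  have h4 : (Z ^ 4).trace * ((N ^ 4 - (N - 2) ^ 4) / N ^ 4) * A.card ≤
      (Z ^ 4).trace * (8 * N) := by
    have h5 : (N ^ 4 - (N - 2) ^ 4) / N ^ 4 * A.card ≤ 8 * N := by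
      calc (N ^ 4 - (N - 2) ^ 4) / N ^ 4 * A.card ≤ (8 * N ^ 3) / N ^ 4 * N ^ 2 := by
            apply mul_le_mul _ hcard (Nat.cast_nonneg _) (by positivity)
            exact div_le_div_of_nonneg_right hp1 (by positivity)
        _ = 8 * N := by field_simp
    rw [mul_assoc]
    exact mul_le_mul_of_nonneg_left h5 hT
  have h6 : ∑ p ∈ A, ((upd Z p.1 p.2 ^ 4).trace - (Z ^ 4).trace) +
        (Z ^ 4).trace * ((N ^ 4 - (N - 2) ^ 4) / N ^ 4) * A.card ≤ R := by nlinarith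
  have h7 : c0 / (N - 2) ^ 4 ≤ 16 * c0 / N ^ 4 := by
    rw [div_le_div_iff₀ (by positivity) (by positivity)]
    have h8 : N ≤ 2 * (N - 2) := by linarith
    have h9 : N ^ 4 ≤ (2 * (N - 2)) ^ 4 := pow_le_pow_left₀ hNp.le h8 4
    calc c0 * N ^ 4 ≤ c0 * (2 * (N - 2)) ^ 4 := mul_le_mul_of_nonneg_left h9 hc
      _ = _ := by ring
  calc _ ≤ c0 / (N - 2) ^ 4 * R := mul_le_mul_of_nonneg_left h6 (by positivity)
    _ ≤ _ := mul_le_mul_of_nonneg_right h7 hR0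

end Vale.Agent.P049.TS.H828
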