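import Vale.Agent.P049.TS.Asm.Expo
import Vale.Agent.P049.TS.H828.LinRate

/-!
Exponent bounds for the right-hand sides of `BF_rate` and `B4_rate` in phase IIIb
(`σ^530 ≤ N ≤ σ^680`): all parameters are bounded by `K` times monomials.
-/

set_option linter.unusedSectionVars false

namespace Vale.Agent.P049.TS.H828

open Vale.Agent.P049.TS.Asm T34

section
variable (b t s v w a1 e τ c0 i N : Ex)

/-- `4 c₀ / N² (2t⁴ + 4τ(t²+1) + 2e² + errT2)`, `i = 1/N` -/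
def BFE : Ex :=
  4 * c0 * i ^ 2 * (2 * t ^ 4 + 4 * τ * (t ^ 2 + 1) + 2 * e ^ 2 +
    (4 * e * (b ^ 3 + s * (2 * b * w + 2 * s) + v ^ 2) +
    18 * ((t + s ^ 2) * (b ^ 3 + 2 * (s * (2 * b * w + 2 * s)) + v ^ 2)) +
    30 * (b ^ 4 + 2 * (s * v) ^ 2)))

def QbE' : Ex := 3 * ((s * v) ^ 2 + (s * v) ^ 2 + w ^ 2)

/-- `2 err4` with `x = b²`, `H = 0` -/
def err4E' : Ex :=
  2 * (e * (8 * (b ^ 3 * b ^ 2) +
    (8 * (s * (b * (b ^ 2 + 1) * w)) + 8 * (v * ((b ^ 2 + 1) * w)) + 4 * (a1 * a1)))) +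
  3 * (8 * (t * (b ^ 3 * b ^ 2)) +
    (16 * ((t + s ^ 2) * (2 * (s * (b * (b ^ 2 + 1) * w)) + b ^ 3 * b ^ 2)) +
      24 * ((t + s ^ 2) * (2 * (v * ((b ^ 2 + 1) * w))) +
        (2 * (s * v) + b ^ 2) * (2 * (s * ((b ^ 2 + 1) * w)) + b ^ 2 * b ^ 2)) +
      12 * ((t + s ^ 2) * (2 * (a1 * a1)) +
        (2 * (s * a1) + b * b ^ 2) * (2 * (s * a1) + b * b ^ 2)) +
      (104 * QbE' s v w + 28 * v ^ 2) * (2 * (s * a1) + b * b ^ 2) +
      28 * ((2 * (s * v) + b ^ 2) * (2 * (v * a1))) + 170 * (QbE' s v w ^ 2 + (v ^ 2) ^ 2)))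

/-- `2 * (16 c₀ / N⁴ errT4)` -/
def B4E : Ex :=
  16 * c0 * i ^ 4 * (2 * (8 * N * t ^ 2 + 16 * (t ^ 2 * b ^ 4) + 8 * τ * (b ^ 4 + 1) +
    8 * τ * (t * b ^ 2) + 8 * τ ^ 2) + err4E' b t s v w a1 e)
end

/-- the environment -/
def env11 {α : Type*} (z b t s v w a1 e τ c0 i N : α) : ℕ → α
  | 0 => b | 1 => t | 2 => s | 3 => v | 4 => w | 5 => a1 | 6 => e | 7 => τ | 8 => c0 | 9 => i
  | 10 => N | _ => z

abbrev xBF : Ex := BFE (.v 0) (.v 1) (.v 2) (.v 3) (.v 4) (.v 6) (.v 7) (.v 8) (.v 9)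
abbrev xB4 : Ex :=
  B4E (.v 0) (.v 1) (.v 2) (.v 3) (.v 4) (.v 5) (.v 6) (.v 7) (.v 8) (.v 9) (.v 10)

variable (b t s v w a1 e τ c0 N : ℝ)

theorem BF_ev : 4 * c0 / N ^ 2 *
      (2 * t ^ 4 + 4 * τ * (t ^ 2 + 1) + 2 * e ^ 2 + errT2 b t s v w e) =
    xBF.ev (env11 0 b t s v w a1 e τ c0 N⁻¹ N) := by
  rw [div_eq_mul_inv, ← inv_pow]
  simp only [xBF, BFE, Ex.ev_add, Ex.ev_mul, Ex.ev_pow, Ex.ev_ofNat, Ex.ev_v, env11, errT2]
  push_cast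
  ring

theorem B4_ev : 2 * (16 * c0 / N ^ 4 * errT4 b t s v w a1 e τ N) =
    xB4.ev (env11 0 b t s v w a1 e τ c0 N⁻¹ N) := by
  rw [div_eq_mul_inv, ← inv_pow]
  simp only [xB4, B4E, err4E', QbE', Ex.ev_add, Ex.ev_mul, Ex.ev_pow, Ex.ev_ofNat, Ex.ev_v,
    env11, errT4, err4, Qb]
  push_cast
  ring

/-- exponents (times 4) at `N = σ^530` -/
def zlo (c : ℤ) : ℕ → ℤ := env11 0 727 752 (-84) 1060 786 1791 1060 944 c (-2120) 2120
/-- exponents (times 4) at `N = σ^680` -/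
def zhi (c : ℤ) : ℕ → ℤ := env11 0 1327 1352 216 1390 1386 2717 1360 1544 c (-2720) 2720


/-- all parameters are at most `K` times the monomials of phase IIIb -/
structure NumB (L X K b t s v w a1 e τ N : ℝ) : Prop where
  K1 : 1 ≤ K
  N0 : 0 < N
  hN : N = Asm.Em L X 530 680 2120 2720
  hb : 0 ≤ b ∧ b ≤ K * Asm.Em L X 530 680 727 1327
  ht : 0 ≤ t ∧ t ≤ K * Asm.Em L X 530 680 752 1352
  hs : 0 ≤ s ∧ s ≤ K * Asm.Em L X 530 680 (-84) 216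
  hv : 0 ≤ v ∧ v ≤ K * Asm.Em L X 530 680 1060 1390
  hw : 0 ≤ w ∧ w ≤ K * Asm.Em L X 530 680 786 1386
  ha : 0 ≤ a1 ∧ a1 ≤ K * Asm.Em L X 530 680 1791 2717
  he : 0 ≤ e ∧ e ≤ K * Asm.Em L X 530 680 1060 1360
  hτ : 0 ≤ τ ∧ τ ≤ K * Asm.Em L X 530 680 944 1544

variable {b t s v w a1 e τ c0 N L X K : ℝ}

theorem NumB.env_bound (h : NumB L X K b t s v w a1 e τ N) {z : ℤ}
    (hc : c0 = Asm.Em L X 530 680 z z) :
    (∀ i, 0 ≤ env11 0 b t s v w a1 e τ c0 N⁻¹ N i) ∧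
    (∀ i, env11 0 b t s v w a1 e τ c0 N⁻¹ N i ≤
      (fun _ => K) i * Asm.Em L X 530 680 (zlo z i) (zhi z i)) := by
  have hK : 0 ≤ K := zero_le_one.trans h.K1
  have hi : N⁻¹ = Asm.Em L X 530 680 (-2120) (-2720) := by
    rw [h.hN]
    refine inv_eq_of_mul_eq_one_right ?_
    rw [Asm.Em_mul]
    norm_num
    exact Asm.Em_zero _ _ _ _
  have hone : ∀ y1 y2 : ℤ, Asm.Em L X 530 680 y1 y2 ≤ K * Asm.Em L X 530 680 y1 y2 := fun y1 y2 => by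
    have := mul_le_mul_of_nonneg_right h.K1 (Asm.Em_pos L X 530 680 y1 y2).le
    linarith
  constructor
  · intro i
    rcases i with _ | _ | _ | _ | _ | _ | _ | _ | _ | _ | _ | i
    · exact h.hb.1
    · exact h.ht.1
    · exact h.hs.1
    · exact h.hv.1
    · exact h.hw.1
    · exact h.ha.1
    · exact h.he.1
    · exact h.hτ.1
    · show 0 ≤ c0
      rw [hc]; exact (Asm.Em_pos _ _ _ _ _ _).le
    · exact inv_nonneg.2 h.N0.le
    · exact h.N0.le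
    · exact le_rfl
  · intro i
    rcases i with _ | _ | _ | _ | _ | _ | _ | _ | _ | _ | _ | i
    · exact h.hb.2
    · exact h.ht.2
    · exact h.hs.2
    · exact h.hv.2
    · exact h.hw.2
    · exact h.ha.2
    · exact h.he.2
    · exact h.hτ.2
    · show c0 ≤ _
      rw [hc]; exact hone _ _
    · show N⁻¹ ≤ _
      rw [hi]; exact hone _ _
    · show N ≤ _
      calc N = Asm.Em L X 530 680 2120 2720 := h.hN
        _ ≤ _ := hone _ _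
    · exact mul_nonneg hK (Asm.Em_pos _ _ _ _ _ _).le

theorem NumB.BF (h : NumB L X K b t s v w a1 e τ N) (R : Rg L X 530 680)
    (hc : c0 = Asm.Em L X 530 680 2736 2736) :
    4 * c0 / N ^ 2 * (2 * t ^ 4 + 4 * τ * (t ^ 2 + 1) + 2 * e ^ 2 + errT2 b t s v w e) ≤
      xBF.cs (fun _ => K) * Asm.Em L X 530 680 2116 2716 := by
  obtain ⟨h0, h1⟩ := h.env_bound hc
  rw [BF_ev b t s v w a1 e τ c0 N]
  exact Ex.bound xBF R (zlo 2736) (zhi 2736) (by decide) (by decide) h0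
    (fun _ => zero_le_one.trans h.K1) h1

theorem NumB.B4 (h : NumB L X K b t s v w a1 e τ N) (R : Rg L X 530 680)
    (hc : c0 = Asm.Em L X 530 680 5572 5572) :
    16 * c0 / N ^ 4 * errT4 b t s v w a1 e τ N ≤
      xB4.cs (fun _ => K) * Asm.Em L X 530 680 2116 2716 := by
  obtain ⟨h0, h1⟩ := h.env_bound hc
  have h2 := Ex.bound xB4 R (zlo 5572) (zhi 5572) (z1 := 2116) (z2 := 2716) (by decide)
    (by decide) h0 (fun _ => zero_le_one.trans h.K1) h1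
  rw [← B4_ev b t s v w a1 e τ c0 N] at h2
  have h3 : 0 ≤ xB4.cs (fun _ => K) * Asm.Em L X 530 680 2116 2716 := by
    have := (Ex.ev_le R h0 h1 (fun _ => zero_le_one.trans h.K1) xB4).1
    exact mul_nonneg this (Asm.Em_pos _ _ _ _ _ _).le
  linarith

end Vale.Agent.P049.TS.H828
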